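import Vale.Agent.P216.H941.LocV
import Vale.Agent.P216.T695.Iface
import Vale.Agent.P216.DV706.Fun

/-!
# The field `L : Loc` of `PSys` (Theorem B, block [S1](6))

`F^n := ker (V : FF (n + 1) → FF (n + 2))`.  The only properties of `V` which are used:
`lamV (V x) = lamV x` in the components `e + j` even, `0` in the others, and `u V = V u`.
-/

open Set Topology
open Module (finrank)

namespace Vale.Agent.P216.GSys

open AS H609 Loc H941

variable {Λ : Type} [MetricSpace Λ] (S : GSys Λ) {k : Type} [Field k] {p : ℕ} [CharP k p]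
  (hp : p.Prime) (h2 : 2 < p)

/-- What is used of `V` at the level `t`. -/
structure VOK {t : ℝ} (ht : 0 ≤ t)
    (V : ∀ n, (S.P k p hp.pos t).FF n →ₗ[k] (S.P k p hp.pos t).FF (n + 1)) : Prop where
  even : ∀ e j, (e + j) % 2 = 0 → ∀ x,
    S.lamV k hp h2 ht (e + 1) j (V e x) = S.lamV k hp h2 ht e j x
  odd : ∀ e j, (e + j) % 2 = 1 → ∀ x, S.lamV k hp h2 ht (e + 1) j (V e x) = 0

/-- **The localisation map on `F = ker V`.** -/
noncomputable def locKer {t : ℝ} (ht : 0 ≤ t)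
    (V : ∀ n, (S.P k p hp.pos t).FF n →ₗ[k] (S.P k p hp.pos t).FF (n + 1))
    (hV : S.VOK hp h2 ht V)
    (u : ∀ n, LinearMap.ker (V (n + 1)) →ₗ[k] LinearMap.ker (V (n + 2 + 1)))
    (hu : ∀ n x, (u n x : (S.P k p hp.pos t).FF (n + 2 + 1)) = (S.P k p hp.pos t).u (n + 1) x)
    (hfin : ∀ j, Module.Finite k (S.V k (t / p) j))
    (htop : ∃ N, ∀ j ≥ N, Subsingleton (S.V k t j))
    (htop' : ∃ N, ∀ j ≥ N, Subsingleton (S.V k (t / p) j)) :
    T695.Loc k (fun n => LinearMap.ker (V (n + 1))) (fun j => S.V k (t / p) j) u where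
  ℓ e j := if (e + j) % 2 = 0 then S.lamV k hp h2 ht (e + 1) j ∘ₗ (LinearMap.ker (V (e + 1))).subtype
    else 0
  par e j h x := by
    rw [if_neg (by omega)]
    rfl
  ℓ_u e j x := by
    by_cases h : (e + j) % 2 = 0
    · rw [if_pos (by omega), if_pos h]
      change S.lamV k hp h2 ht (e + 2 + 1) j (u e x : (S.P k p hp.pos t).FF (e + 2 + 1)) =
        S.lamV k hp h2 ht (e + 1) j (x : (S.P k p hp.pos t).FF (e + 1))
      rw [hu]
      exact S.lamV_u hp h2 ht (e + 1) j _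
    · rw [if_neg (by omega), if_neg h]
      rfl
  inj := by
    obtain ⟨N, hN⟩ := htop
    refine ⟨N, fun e he x hx => ?_⟩
    refine Subtype.ext (S.lamV_inj hp h2 ht hN (by omega : N ≤ e + 1) _ fun j _ => ?_)
    by_cases h : (e + j) % 2 = 0
    · have h1 := hx j
      rw [if_pos h] at h1
      exact h1
    · have h1 := hV.even (e + 1) j (by omega) x
      have h3 : V (e + 1) (x : (S.P k p hp.pos t).FF (e + 1)) = 0 := x.2
      rw [h3, map_zero] at h1
      exact h1.symm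
  surj := by
    obtain ⟨N, hN⟩ := htop
    obtain ⟨N', hN'⟩ := htop'
    obtain ⟨M, hM⟩ := S.lamV_surj hp h2 ht hfin hN'
    refine ⟨max M (max N N'), fun e he y hy => ?_⟩
    have he1 : M ≤ e := (le_max_left _ _).trans he
    have he2 : N ≤ e := (le_max_left _ _).trans ((le_max_right _ _).trans he)
    have he3 : N' ≤ e := (le_max_right _ _).trans ((le_max_right _ _).trans he)
    obtain ⟨z, hz⟩ := hM (e + 1) (by omega) y
    have hVz : V (e + 1) z = 0 := by
      refine S.lamV_inj hp h2 ht hN (by omega : N ≤ e + 1 + 1) _ fun j hj => ?_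
      by_cases h : (e + j) % 2 = 0
      · exact hV.odd (e + 1) j (by omega) z
      · rw [hV.even (e + 1) j (by omega) z, hz j (by omega)]
        exact hy j (by omega)
    refine ⟨⟨z, hVz⟩, fun j => ?_⟩
    by_cases h : (e + j) % 2 = 0
    · rw [if_pos h]
      change S.lamV k hp h2 ht (e + 1) j z = y j
      by_cases hj : j ≤ e + 1
      · exact hz j hj
      · have := hN' j (by omega)
        exact Subsingleton.elim _ _
    · rw [if_neg h, hy j (by omega)]
      rfl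

theorem locKer_ℓ {t : ℝ} (ht : 0 ≤ t)
    (V : ∀ n, (S.P k p hp.pos t).FF n →ₗ[k] (S.P k p hp.pos t).FF (n + 1))
    (hV : S.VOK hp h2 ht V)
    (u : ∀ n, LinearMap.ker (V (n + 1)) →ₗ[k] LinearMap.ker (V (n + 2 + 1)))
    (hu : ∀ n x, (u n x : (S.P k p hp.pos t).FF (n + 2 + 1)) = (S.P k p hp.pos t).u (n + 1) x)
    (hfin : ∀ j, Module.Finite k (S.V k (t / p) j))
    (htop : ∃ N, ∀ j ≥ N, Subsingleton (S.V k t j))
    (htop' : ∃ N, ∀ j ≥ N, Subsingleton (S.V k (t / p) j)) (e j : ℕ)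
    (x : LinearMap.ker (V (e + 1))) :
    (S.locKer hp h2 ht V hV u hu hfin htop htop').ℓ e j x =
      if (e + j) % 2 = 0 then S.lamV k hp h2 ht (e + 1) j (x : (S.P k p hp.pos t).FF (e + 1))
      else 0 := by
  change (if (e + j) % 2 = 0 then S.lamV k hp h2 ht (e + 1) j ∘ₗ
    (LinearMap.ker (V (e + 1))).subtype else 0) x = _
  split_ifs <;> rfl

/-- **Naturality of the localisation.** -/
theorem locKer_res {s t : ℝ} (hs : 0 ≤ s) (ht : 0 ≤ t) (hst : s ≤ t) (h' : s / p ≤ t / p)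
    (V : ∀ n, (S.P k p hp.pos t).FF n →ₗ[k] (S.P k p hp.pos t).FF (n + 1))
    (V' : ∀ n, (S.P k p hp.pos s).FF n →ₗ[k] (S.P k p hp.pos s).FF (n + 1))
    (hV : S.VOK hp h2 ht V) (hV' : S.VOK hp h2 hs V')
    (u : ∀ n, LinearMap.ker (V (n + 1)) →ₗ[k] LinearMap.ker (V (n + 2 + 1)))
    (hu : ∀ n x, (u n x : (S.P k p hp.pos t).FF (n + 2 + 1)) = (S.P k p hp.pos t).u (n + 1) x)
    (u' : ∀ n, LinearMap.ker (V' (n + 1)) →ₗ[k] LinearMap.ker (V' (n + 2 + 1)))
    (hu' : ∀ n x, (u' n x : (S.P k p hp.pos s).FF (n + 2 + 1)) = (S.P k p hp.pos s).u (n + 1) x)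
    (hfin : ∀ j, Module.Finite k (S.V k (t / p) j))
    (htop : ∃ N, ∀ j ≥ N, Subsingleton (S.V k t j))
    (htop' : ∃ N, ∀ j ≥ N, Subsingleton (S.V k (t / p) j))
    (hfins : ∀ j, Module.Finite k (S.V k (s / p) j))
    (htops : ∃ N, ∀ j ≥ N, Subsingleton (S.V k s j))
    (htops' : ∃ N, ∀ j ≥ N, Subsingleton (S.V k (s / p) j)) (e j : ℕ)
    (x : LinearMap.ker (V (e + 1))) (x' : LinearMap.ker (V' (e + 1)))
    (hx : (x' : (S.P k p hp.pos s).FF (e + 1)) =
      GCx.Pair.resF (P := S.P k p hp.pos t) (P' := S.P k p hp.pos s)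
      (Cc_anti (S.mono s t hst)) (Zr_anti (S.mono s t hst) (S.mono s t hst)) (e + 1) x) :
    (S.locKer hp h2 hs V' hV' u' hu' hfins htops htops').ℓ e j x' =
      AS.res (S.mono (s / p) (t / p) h') j
        ((S.locKer hp h2 ht V hV u hu hfin htop htop').ℓ e j x) := by
  rw [locKer_ℓ, locKer_ℓ]
  split_ifs
  · rw [hx]
    exact S.lamV_res hp h2 hs ht hst h' (e + 1) j _
  · rw [map_zero]

end Vale.Agent.P216.GSys

namespace Vale.Agent.P216.H941

open Vale.Agent.P216.AS Vale.Agent.P216.H609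

section Abs

variable {k : Type} [Field k] {C : Amb k} {G : GCx C} {S A : Sub C}

theorem sum_range_cast_eq_zero (k : Type) [Field k] {p : ℕ} [CharP k p] (h2 : 2 < p) :
    ∑ i ∈ Finset.range p, (i : k) = 0 := by
  have h : (2 : k) ≠ 0 := GSys.two_ne_zero_of_charP k h2
  have h1 : (∑ i ∈ Finset.range p, i) * 2 = p * (p - 1) := Finset.sum_range_id_mul_two p
  have h3 : ((∑ i ∈ Finset.range p, i : ℕ) : k) * 2 = 0 := by
    have := congrArg (fun m : ℕ => (m : k)) h1
    simp only [Nat.cast_mul, CharP.cast_eq_zero, zero_mul] at this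
    exact_mod_cast this
  rw [Nat.cast_sum] at h3
  exact (mul_eq_zero.1 h3).resolve_right h

/-- `A = ∑ i g^i` vanishes on the fixed set. -/
theorem sumA_mem (htr : Triv G S A) (hS : G.Stable S) {p : ℕ} [CharP k p] (h2 : 2 < p)
    {n : ℕ} {x : C.K n} (hx : x ∈ S n) :
    ∑ i ∈ Finset.range p, (i : k) • ((G.g n : Module.End k (C.K n)) ^ i) x ∈ A n := by
  have hpow : ∀ i, ((G.g n : Module.End k (C.K n)) ^ i) x ∈ S n := by
    intro i
    induction i with
    | zero => exact hx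
    | succ i ih =>
      rw [pow_succ', Module.End.mul_apply]
      exact hS.g_mem n _ ih
  have hsub : ∀ i, x - ((G.g n : Module.End k (C.K n)) ^ i) x ∈ A n := by
    intro i
    induction i with
    | zero => rw [pow_zero, Module.End.one_apply, sub_self]; exact Submodule.zero_mem _
    | succ i ih =>
      have h1 := Submodule.add_mem _ ih (htr.g_sub n _ (hpow i))
      rw [pow_succ', Module.End.mul_apply]
      simpa using h1
  have h1 : ∑ i ∈ Finset.range p, (i : k) • ((G.g n : Module.End k (C.K n)) ^ i) x =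
      (∑ i ∈ Finset.range p, (i : k)) • x -
        ∑ i ∈ Finset.range p, (i : k) • (x - ((G.g n : Module.End k (C.K n)) ^ i) x) := by
    rw [Finset.sum_smul, ← Finset.sum_sub_distrib]
    refine Finset.sum_congr rfl fun i _ => ?_
    rw [smul_sub, sub_sub_cancel]
  rw [h1, sum_range_cast_eq_zero k h2, zero_smul, zero_sub]
  exact Submodule.neg_mem _ (Submodule.sum_mem _ fun i _ => Submodule.smul_mem _ _ (hsub i))

end Abs

end Vale.Agent.P216.H941

namespace Vale.Agent.P216.GSys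

open AS H609 Loc H941

variable {Λ : Type} [MetricSpace Λ] (S : GSys Λ) {k : Type} [Field k] {p : ℕ} [CharP k p]
  (hp : p.Prime) (h2 : 2 < p)

/-- If `V` is the identity on the components `n + q` even, and vanishes on the fixed set on the
others, then `VOK`. -/
theorem vok_of {t : ℝ} (ht : 0 ≤ t)
    (V : ∀ n, (S.P k p hp.pos t).FF n →ₗ[k] (S.P k p hp.pos t).FF (n + 1))
    (hV : ∀ n (c : ∀ q, (ASK Λ k).K q)
      (hc : c ∈ Zc ((S.sym k p hp.pos).gcx.TotS (S.P k p hp.pos t).S (S.P k p hp.pos t).hS)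
        ((S.sym k p hp.pos).gcx.TotS (S.P k p hp.pos t).T (S.P k p hp.pos t).hT) n),
      ∃ (c' : ∀ q, (ASK Λ k).K q)
        (hc' : c' ∈ Zc ((S.sym k p hp.pos).gcx.TotS (S.P k p hp.pos t).S (S.P k p hp.pos t).hS)
        ((S.sym k p hp.pos).gcx.TotS (S.P k p hp.pos t).T (S.P k p hp.pos t).hT) (n + 1)),
      V n (H.mk c hc) = H.mk c' hc' ∧ (∀ q, (n + q) % 2 = 0 → c' q = c q) ∧
      ∀ q, (n + q) % 2 = 1 → c' q ∈ S.CFix k p t q) :
    S.VOK hp h2 ht V where
  even e j h x := by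
    obtain ⟨c, hc, rfl⟩ := H.exists_mk x
    obtain ⟨c', hc', h1, h3, -⟩ := hV e c hc
    rw [h1, lamV_mk, lamV_mk, H.mk_eq_mk, h3 j h, sub_self]
    exact Submodule.zero_mem _
  odd e j h x := by
    obtain ⟨c, hc, rfl⟩ := H.exists_mk x
    obtain ⟨c', hc', h1, -, h3⟩ := hV e c hc
    rw [h1, lamV_mk, H.mk_eq_zero]
    refine T_le_Bc _ _ _ ?_
    exact ((S.isMap_ψ hp h2 ht).isMor_Cc le_rfl (S.isMap_ψ hp h2 ht).mapsX).mapT
      (Zr_anti (S.Fix_sub p t) le_rfl j (h3 j h))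

/-- `VOK` for the operator `V` of a circle structure (`DV706`). -/
theorem vok_circ {t : ℝ} (ht : 0 ≤ t) (X : DV.Circ (S.sym k p hp.pos).gcx)
    (hS : X.TSt ((S.sym k p hp.pos).gcx.TotS (S.P k p hp.pos t).S (S.P k p hp.pos t).hS))
    (hT : X.TSt ((S.sym k p hp.pos).gcx.TotS (S.P k p hp.pos t).T (S.P k p hp.pos t).hT))
    (hA : ∀ q x, x ∈ S.CS k t q → X.A q x ∈ S.CFix k p t q) :
    S.VOK hp h2 ht (X.V hS hT) :=
  S.vok_of hp h2 ht _ fun n c hc => ⟨X.Vop n c, X.Vop_isZ hS hT n c hc, X.V_mk hS hT hc,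
    fun q hq => X.Vop_even hq c, fun q hq => by
      rw [X.Vop_odd hq]
      exact hA q _ (memS (mem_Zc.1 hc).1 q)⟩

end Vale.Agent.P216.GSys
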