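import Vale.Agent.P216.H941.LocKer
import Vale.Agent.P216.DV706.Gys

/-!
# The fields `L` and `ℓ_ρ` of `PSysB` (Theorem B, block [S1](6))

For `S : GSys Λ` and a circle structure `X` on the cochains of `S` (`DV706`).
-/

open Set Topology
open Module (finrank)

namespace Vale.Agent.P216.GSys

open AS H609 Loc H941

variable {Λ : Type} [MetricSpace Λ] (S : GSys Λ) {k : Type} [Field k] {p : ℕ} [CharP k p]
  (hp : p.Prime) (h2 : 2 < p)

include h2 in
/-- `A` maps the cochains into those vanishing on the fixed set. -/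
theorem circ_A_mem {t : ℝ} (X : DV.Circ (S.sym k p hp.pos).gcx)
    (hB : ∀ q x, x ∈ S.CFix k p t q → X.B q x ∈ S.CFix k p t q) (q : ℕ)
    (x : (ASK Λ k).K q) (hx : x ∈ S.CS k t q) : X.A q x ∈ S.CFix k p t q := by
  rw [X.A_eq]
  exact hB q _ ((S.CFix_triv k hp h2 t).g_sub q x hx)

/-- **The field `L`.** -/
noncomputable def locGys {t : ℝ} (ht : 0 ≤ t) {X : DV.Circ (S.sym k p hp.pos).gcx}
    (h : X.PSt (S.P k p hp.pos t))
    (hB : ∀ q x, x ∈ S.CFix k p t q → X.B q x ∈ S.CFix k p t q)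
    (hfin : ∀ j, Module.Finite k (S.V k (t / p) j))
    (htop : ∃ N, ∀ j ≥ N, Subsingleton (S.V k t j))
    (htop' : ∃ N, ∀ j ≥ N, Subsingleton (S.V k (t / p) j)) :
    T695.Loc k (fun n => h.F n) (fun j => S.V k (t / p) j) h.gys.u :=
  S.locKer hp h2 ht h.VF (S.vok_circ hp h2 ht X h.tS h.tT (S.circ_A_mem hp h2 X hB)) h.uF
    (fun _ _ => rfl) hfin htop htop'

theorem locGys_ℓ {t : ℝ} (ht : 0 ≤ t) {X : DV.Circ (S.sym k p hp.pos).gcx}
    (h : X.PSt (S.P k p hp.pos t))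
    (hB : ∀ q x, x ∈ S.CFix k p t q → X.B q x ∈ S.CFix k p t q)
    (hfin : ∀ j, Module.Finite k (S.V k (t / p) j))
    (htop : ∃ N, ∀ j ≥ N, Subsingleton (S.V k t j))
    (htop' : ∃ N, ∀ j ≥ N, Subsingleton (S.V k (t / p) j)) (e j : ℕ) (x : h.F e) :
    (S.locGys hp h2 ht h hB hfin htop htop').ℓ e j x =
      if (e + j) % 2 = 0 then S.lamV k hp h2 ht (e + 1) j (x : (S.P k p hp.pos t).FF (e + 1))
      else 0 :=
  S.locKer_ℓ hp h2 ht h.VF _ h.uF _ hfin htop htop' e j x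

/-- **The field `ℓ_ρ`.** -/
theorem locGys_res {s t : ℝ} (hs : 0 ≤ s) (ht : 0 ≤ t) (hst : s ≤ t) (h' : s / p ≤ t / p)
    {X : DV.Circ (S.sym k p hp.pos).gcx}
    (h : X.PSt (S.P k p hp.pos t)) (hh : X.PSt (S.P k p hp.pos s))
    (hB : ∀ q x, x ∈ S.CFix k p t q → X.B q x ∈ S.CFix k p t q)
    (hB' : ∀ q x, x ∈ S.CFix k p s q → X.B q x ∈ S.CFix k p s q)
    (hfin : ∀ j, Module.Finite k (S.V k (t / p) j))
    (htop : ∃ N, ∀ j ≥ N, Subsingleton (S.V k t j))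
    (htop' : ∃ N, ∀ j ≥ N, Subsingleton (S.V k (t / p) j))
    (hfins : ∀ j, Module.Finite k (S.V k (s / p) j))
    (htops : ∃ N, ∀ j ≥ N, Subsingleton (S.V k s j))
    (htops' : ∃ N, ∀ j ≥ N, Subsingleton (S.V k (s / p) j)) (e j : ℕ)
    (x : h.F e) (x' : hh.F e)
    (hx : (x' : (S.P k p hp.pos s).FF (e + 1)) =
      GCx.Pair.resF (P := S.P k p hp.pos t) (P' := S.P k p hp.pos s)
      (Cc_anti (S.mono s t hst)) (Zr_anti (S.mono s t hst) (S.mono s t hst)) (e + 1) x) :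
    (S.locGys hp h2 hs hh hB' hfins htops htops').ℓ e j x' =
      AS.res (S.mono (s / p) (t / p) h') j
        ((S.locGys hp h2 ht h hB hfin htop htop').ℓ e j x) :=
  S.locKer_res hp h2 hs ht hst h' h.VF hh.VF _ _ h.uF _ hh.uF _ hfin htop htop' hfins htops
    htops' e j x x' hx

end Vale.Agent.P216.GSys
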