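import Vale.Agent.P216.Bor.LocFinal

/-!
# Localisation by components (Theorem B, block [S1](6)), at the level of `FF`

* `lam` : component maps `F^n (S / T) → H^j (S / A)` (`A`: fixed set, trivial action);
* `resF_injective_high` : `F^n (S / T) → F^n (S / A)` is injective in high degrees;
* `lam_inj`, `lam_surj` : `F^n (S / T) ≃ ∏_{j ≤ n} H^j (S / A)` in high degrees;
* `GSys.lamV` : `F^n (X t) → H^j (X (t / p))`, natural in `t`.
-/

open Set Topology
open Module (finrank)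

namespace Vale.Agent.P216.H941

open Vale.Agent.P216.AS Vale.Agent.P216.H609

section Abs

variable {k : Type} [Field k] {C : Amb k} {G : GCx C} {S A T : Sub C}
  {hS : G.Stable S} {hA : G.Stable A} {hT : G.Stable T}

/-- In high degrees `u` is injective. -/
theorem u_injective_high (P : G.Pair) {J : ℕ} (hJ : ∀ j ≥ J, Subsingleton (P.HH j)) {n : ℕ}
    (hn : J ≤ n) : Function.Injective (P.u n) := by
  have hE : Subsingleton (P.EE (n + 1)) := by
    have h1 := hJ n hn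
    have h2 := hJ (n + 1) (by omega)
    have key : ∀ x : P.EE (n + 1), x = 0 := by
      intro x
      obtain ⟨z, rfl⟩ := (P.exab n x).mp (Subsingleton.elim _ _)
      rw [Subsingleton.elim z 0, map_zero]
    exact ⟨fun x y => by rw [key x, key y]⟩
  rw [injective_iff_map_eq_zero]
  intro x hx
  obtain ⟨z, rfl⟩ := (P.uSeq.ex2 n x).mp hx
  rw [Subsingleton.elim z 0, map_zero]

/-- In high degrees a cocycle which dies after multiplication by a power of `u` is zero. -/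
theorem Bc_of_umap (P : G.Pair) {J : ℕ} (hJ : ∀ j ≥ J, Subsingleton (P.HH j)) {n : ℕ}
    (hn : J ≤ n) {c : ∀ q, C.K q} (hc : c ∈ Zc (G.TotS P.S P.hS) (G.TotS P.T P.hT) n) (m : ℕ)
    (h : (c : G.Tot.K (n + 2 * m)) ∈ Bc (G.TotS P.S P.hS) (G.TotS P.T P.hT) (n + 2 * m)) :
    c ∈ Bc (G.TotS P.S P.hS) (G.TotS P.T P.hT) n := by
  induction m with
  | zero => exact h
  | succ m ih =>
    refine ih ?_
    have h1 := umap_aux n m hc
    have h2 := u_injective_high P hJ (n := n + 2 * m) (by omega)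
    rw [← H.mk_eq_zero (hx := h1)]
    refine h2 ?_
    rw [map_zero]
    exact H.mk_eq_zero.2 h

/-- **Injectivity of the restriction to the fixed set in high degrees.** -/
theorem resF_injective_high (P : G.Pair) {A : Sub C} {hA : G.Stable A} (hTA : P.T ≤ A)
    (hAS : A ≤ P.S) (ht : UTors G A P.T hA P.hT) {J : ℕ} (hJ : ∀ j ≥ J, Subsingleton (P.HH j))
    {n : ℕ} (hn : J ≤ n) : Function.Injective (H609.resF P.hS hA P.hT hTA n) := by
  rw [injective_iff_map_eq_zero]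
  intro x hx
  obtain ⟨c, hc, rfl⟩ := H.exists_mk x
  rw [resF_mk, H.mk_eq_zero] at hx
  rw [H.mk_eq_zero]
  obtain ⟨a, ha, w, hw, haw⟩ := mem_Bc.1 hx
  have hDw : G.D n w = 0 := d_im hw
  have hDa : G.D n a = G.D n c := by rw [← haw, map_add, hDw, add_zero]
  have haZ : a ∈ Zc (G.TotS A hA) (G.TotS P.T P.hT) n := by
    refine mem_Zc.2 ⟨ha, ?_⟩
    change G.D n a ∈ _
    rw [hDa]
    exact (mem_Zc.1 hc).2
  have hw' : w ∈ Bc (G.TotS P.S P.hS) (G.TotS P.T P.hT) n := im_le_Bc _ _ _ hw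
  obtain ⟨m, hm⟩ := ht n a haZ
  have haZ' : a ∈ Zc (G.TotS P.S P.hS) (G.TotS P.T P.hT) n :=
    Zc_mono (TotS_le hAS) le_rfl n haZ
  have h1 : (a : G.Tot.K (n + 2 * m)) ∈ Bc (G.TotS P.S P.hS) (G.TotS P.T P.hT) (n + 2 * m) :=
    Bc_mono (TotS_le hAS) le_rfl _ hm
  have h2 := Bc_of_umap P hJ hn haZ' m h1
  rw [← haw]
  exact Submodule.add_mem _ h2 hw'

/-- The component `F^n (S / T) → H^j (S / A)`. -/
def lam (h : Triv G S A) (hTA : T ≤ A) (n j : ℕ) :
    H (G.TotS S hS) (G.TotS T hT) n →ₗ[k] H S A j :=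
  H.gmap (LinearMap.proj j : (∀ q, C.K q) →ₗ[k] C.K j)
    (fun _ hx => h.comp_Zc (hA := hA) (Zc_mono le_rfl (TotS_le hTA) n hx) j)
    fun _ _ hx => h.comp_Bc (hA := hA) (Bc_mono le_rfl (TotS_le hTA) n hx) j

theorem lam_mk (h : Triv G S A) (hTA : T ≤ A) (n j : ℕ) {c : ∀ q, C.K q}
    (hc : c ∈ Zc (G.TotS S hS) (G.TotS T hT) n) :
    lam (hA := hA) h hTA n j (H.mk c hc) =
      H.mk (c j) (h.comp_Zc (hA := hA) (Zc_mono le_rfl (TotS_le hTA) n hc) j) := rfl

theorem lam_of_lt (h : Triv G S A) (hTA : T ≤ A) {n j : ℕ} (hj : n < j)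
    (x : H (G.TotS S hS) (G.TotS T hT) n) : lam (hA := hA) h hTA n j x = 0 := by
  obtain ⟨c, hc, rfl⟩ := H.exists_mk x
  rw [lam_mk, H.mk_eq_zero, (mem_Zc.1 hc).1.2 j hj]
  exact Submodule.zero_mem _

theorem lam_u (P : G.Pair) {A : Sub C} {hA : G.Stable A} (h : Triv G P.S A) (hTA : P.T ≤ A)
    (n j : ℕ) (x : P.FF n) :
    lam (hA := hA) h hTA (n + 2) j (P.u n x) = lam (hA := hA) h hTA n j x := by
  obtain ⟨c, hc, rfl⟩ := H.exists_mk x
  rfl

/-- Joint injectivity in high degrees. -/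
theorem lam_inj (P : G.Pair) {A : Sub C} {hA : G.Stable A} (h : Triv G P.S A) (hTA : P.T ≤ A)
    (hAS : A ≤ P.S) (ht : UTors G A P.T hA P.hT) {J : ℕ} (hJ : ∀ j ≥ J, Subsingleton (P.HH j))
    {n : ℕ} (hn : J ≤ n) (x : P.FF n) (hx : ∀ j ≤ n, lam (hA := hA) h hTA n j x = 0) : x = 0 := by
  refine resF_injective_high P (hA := hA) hTA hAS ht hJ hn ?_
  rw [map_zero]
  refine (compMap_bijective (hS := P.hS) (hA := hA) h n).1 ?_
  rw [map_zero]
  obtain ⟨c, hc, rfl⟩ := H.exists_mk x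
  funext j
  exact hx j (by omega)

/-- Joint surjectivity in high degrees. -/
theorem lam_surj (P : G.Pair) {A : Sub C} {hA : G.Stable A} (h : Triv G P.S A) (hTA : P.T ≤ A)
    (hAS : A ≤ P.S) (ht : UTors G A P.T hA P.hT) [∀ j, FiniteDimensional k (H P.S A j)] {J : ℕ}
    (hJ : ∀ j ≥ J, Subsingleton (H P.S A j)) :
    ∃ N, ∀ n ≥ N, ∀ y : ∀ j, H P.S A j, ∃ x : P.FF n, ∀ j ≤ n,
      lam (hA := hA) h hTA n j x = y j := by
  obtain ⟨N, hN⟩ := exists_surjective (hS := P.hS) (hA := hA) (hT := P.hT) h hTA hAS ht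
    (J := J) fun j hj => H.subsingleton_iff.1 (hJ j hj)
  refine ⟨N, fun n hn y => ?_⟩
  obtain ⟨z, hz⟩ := (compMap_bijective (hS := P.hS) (hA := hA) h n).2 fun j => y j
  obtain ⟨x, rfl⟩ := hN n hn z
  refine ⟨x, fun j hj => ?_⟩
  have h1 := congrFun hz ⟨j, by omega⟩
  rw [← h1]
  obtain ⟨c, hc, rfl⟩ := H.exists_mk x
  rfl

end Abs

end Vale.Agent.P216.H941
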