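import Vale.Agent.P216.H941.LocGys
import Vale.Agent.P216.DV706.Inst
import Vale.Agent.P216.DV706.Nat

/-!
# The fields `L` and `ℓ_ρ` for the circle data `circSym` of a `GSys` (Theorem B)
-/

open Set Topology

namespace Vale.Agent.P216.GSys

open AS H609 Loc H941 DV965

variable {Λ : Type} [MetricSpace Λ] (S : GSys Λ) {k : Type} [Field k] {p : ℕ} [CharP k p]
  (hp : p.Prime) (h2 : 2 < p) {H : ℝ → Λ → Λ} (hH : Arc (S.sym k p hp.pos).g H)

/-- `B` preserves the cochains vanishing on the fixed set. -/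
theorem circ_B_CFix (t : ℝ) (q : ℕ) (x : (ASK Λ k).K q) (hx : x ∈ S.CFix k p t q) :
    (DV.circSym (S.sym k p hp.pos) h2 hH).B q x ∈ S.CFix k p t q :=
  DV.sumK_mem _ _ (fun y hy => (S.CFix_stable k hp h2 t).g_mem _ y hy) hx

/-- **The field `L`** for the circle data of an arc. -/
noncomputable def locCirc {t : ℝ} (ht : 0 ≤ t)
    (h : (DV.circSym (S.sym k p hp.pos) h2 hH).PSt (S.P k p hp.pos t))
    (hfin : ∀ j, Module.Finite k (S.V k (t / p) j))
    (htop : ∃ N, ∀ j ≥ N, Subsingleton (S.V k t j))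
    (htop' : ∃ N, ∀ j ≥ N, Subsingleton (S.V k (t / p) j)) :
    T695.Loc k (fun n => h.F n) (fun j => S.V k (t / p) j) h.gys.u :=
  S.locGys hp h2 ht h (S.circ_B_CFix hp h2 hH t) hfin htop htop'

/-- **The field `ℓ_ρ`** for the circle data of an arc. -/
theorem locCirc_res {s t : ℝ} (hs : 0 ≤ s) (ht : 0 ≤ t) (hst : s ≤ t) (h' : s / p ≤ t / p)
    (h : (DV.circSym (S.sym k p hp.pos) h2 hH).PSt (S.P k p hp.pos t))
    (hh : (DV.circSym (S.sym k p hp.pos) h2 hH).PSt (S.P k p hp.pos s))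
    (hfin : ∀ j, Module.Finite k (S.V k (t / p) j))
    (htop : ∃ N, ∀ j ≥ N, Subsingleton (S.V k t j))
    (htop' : ∃ N, ∀ j ≥ N, Subsingleton (S.V k (t / p) j))
    (hfins : ∀ j, Module.Finite k (S.V k (s / p) j))
    (htops : ∃ N, ∀ j ≥ N, Subsingleton (S.V k s j))
    (htops' : ∃ N, ∀ j ≥ N, Subsingleton (S.V k (s / p) j)) (e j : ℕ)
    (x : h.F e) :
    (S.locCirc hp h2 hH hs hh hfins htops htops').ℓ e j
        (DV.Circ.PSt.resF h hh (Cc_anti (S.mono s t hst))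
          (Zr_anti (S.mono s t hst) (S.mono s t hst)) e x) =
      AS.res (S.mono (s / p) (t / p) h') j
        ((S.locCirc hp h2 hH ht h hfin htop htop').ℓ e j x) :=
  S.locGys_res hp h2 hs ht hst h' h hh (S.circ_B_CFix hp h2 hH t) (S.circ_B_CFix hp h2 hH s)
    hfin htop htop' hfins htops htops' e j x _ (DV.Circ.PSt.resF_coe h hh _ _ e x)

end Vale.Agent.P216.GSys
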