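import Vale.Agent.P216.H941.LocCirc

/-!
# The top component of the localisation: `ℓ e e x = ψ* (π x)` (Theorem B, `n ≡ 2 mod 4`)
-/

open Set Topology

namespace Vale.Agent.P216.GSys

open AS H609 Loc H941 DV965

variable {Λ : Type} [MetricSpace Λ] (S : GSys Λ)

theorem isMap_ψX {p : ℕ} (hp : p.Prime) (h2 : 2 < p) {t : ℝ} (ht : 0 ≤ t) :
    IsMap (fun _ : Unit => S.τ) (fun _ : Unit => S.τ) (S.X (t / p)) (S.X t) (S.ψ p) := by
  have hp0 : (0 : ℝ) < p := by exact_mod_cast hp.pos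
  have hs' : 0 ≤ t / p := div_nonneg ht hp0.le
  exact IsMap.of_continuousOn (S.compact _) (S.ψ_cont p hp h2 (t / p) hs')
    (fun x hx => S.Fix_sub p t (by rw [← S.image_eq_Fix hp h2 ht]; exact mem_image_of_mem _ hx))
    fun _ x hx => S.ψ_τ p hp h2 (t / p) hs' x hx

/-- Pull back by the `p`-th iteration `X (t / p) → X t`. -/
noncomputable def psiV (k : Type) [Field k] {p : ℕ} (hp : p.Prime) (h2 : 2 < p) {t : ℝ}
    (ht : 0 ≤ t) (j : ℕ) : S.V k t j →ₗ[k] S.V k (t / p) j :=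
  pull (fun _ : Unit => (-1 : k)) (S.isMap_ψX hp h2 ht) j

variable {k : Type} [Field k] {p : ℕ} [CharP k p] (hp : p.Prime) (h2 : 2 < p)

theorem psiV_bπ {t : ℝ} (ht : 0 ≤ t) {e : ℕ} {c : ∀ q, (ASK Λ k).K q}
    (hc : c ∈ Zc ((S.sym k p hp.pos).gcx.TotS (S.P k p hp.pos t).S (S.P k p hp.pos t).hS)
      ((S.sym k p hp.pos).gcx.TotS (S.P k p hp.pos t).T (S.P k p hp.pos t).hT) e) :
    S.psiV k hp h2 ht e ((S.P k p hp.pos t).b e ((S.P k p hp.pos t).π e (AS.H.mk c hc))) =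
      AS.H.mk (pbK k (S.ψ p) e (c e)) (S.lamV_mk_aux hp h2 ht e hc) := rfl

/-- `x = V y` and both sides are the class of the top component of `y`. -/
theorem lamV_VF {t : ℝ} (ht : 0 ≤ t) {X : DV.Circ (S.sym k p hp.pos).gcx}
    (h : X.PSt (S.P k p hp.pos t)) (e : ℕ) (y : (S.P k p hp.pos t).FF e) :
    S.lamV k hp h2 ht (e + 1) e (h.VF e y) =
      S.psiV k hp h2 ht e ((S.P k p hp.pos t).b e ((S.P k p hp.pos t).π e y)) := by
  obtain ⟨c, hc, rfl⟩ := AS.H.exists_mk y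
  rw [S.psiV_bπ hp h2 ht hc, h.VF_mk, S.lamV_mk hp h2 ht e]
  exact DV.mk_congr (by rw [X.Vop_even (by omega)]) _ _

/-- **The top component of the localisation** is the pull back of `π x` by the iteration. -/
theorem locGys_top {t : ℝ} (ht : 0 ≤ t) {X : DV.Circ (S.sym k p hp.pos).gcx}
    (h : X.PSt (S.P k p hp.pos t))
    (hB : ∀ q x, x ∈ S.CFix k p t q → X.B q x ∈ S.CFix k p t q)
    (hfin : ∀ j, Module.Finite k (S.V k (t / p) j))
    (htop : ∃ N, ∀ j ≥ N, Subsingleton (S.V k t j))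
    (htop' : ∃ N, ∀ j ≥ N, Subsingleton (S.V k (t / p) j)) (e : ℕ) (x : h.F e) :
    (S.locGys hp h2 ht h hB hfin htop htop').ℓ e e x = S.psiV k hp h2 ht e (h.πF e x) := by
  obtain ⟨x, hx⟩ := x
  obtain ⟨y, rfl⟩ := h.exists_VF hx
  rw [locGys_ℓ, if_pos (by omega)]
  exact (S.lamV_VF hp h2 ht h e y).trans
    (congrArg (S.psiV k hp h2 ht e) (h.πF_VF e y)).symm

/-- The same for the circle data of an arc. -/
theorem locCirc_top {H : ℝ → Λ → Λ} (hH : Arc (S.sym k p hp.pos).g H) {t : ℝ} (ht : 0 ≤ t)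
    (h : (DV.circSym (S.sym k p hp.pos) h2 hH).PSt (S.P k p hp.pos t))
    (hfin : ∀ j, Module.Finite k (S.V k (t / p) j))
    (htop : ∃ N, ∀ j ≥ N, Subsingleton (S.V k t j))
    (htop' : ∃ N, ∀ j ≥ N, Subsingleton (S.V k (t / p) j)) (e : ℕ) (x : h.F e) :
    (S.locCirc hp h2 hH ht h hfin htop htop').ℓ e e x = S.psiV k hp h2 ht e (h.πF e x) :=
  S.locGys_top hp h2 ht h (S.circ_B_CFix hp h2 hH t) hfin htop htop' e x

end Vale.Agent.P216.GSys
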