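import Vale.Agent.P216.H941.LocFF

/-!
# Localisation by components for a `GSys`, at the level of `FF`

`S.lamV hp h2 ht e j : F^e_{Z/p} (X t) → H^j (X (t / p))`, `[c] ↦ [c_j ∘ ψ p]`:
compatible with `u` and with the restrictions, jointly bijective in high degrees
(onto the components `j ≤ e`).
-/

open Set Topology
open Module (finrank)

namespace Vale.Agent.P216.GSys

open AS H609 Loc H941

variable {Λ : Type} [MetricSpace Λ] (S : GSys Λ)

section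

variable {k : Type} [Field k]

theorem two_ne_zero_of_charP (k : Type) [Field k] {p : ℕ} [CharP k p]
    (h2 : 2 < p) : (2 : k) ≠ 0 := by
  intro h
  have h' : ((2 : ℕ) : k) = 0 := by exact_mod_cast h
  rw [CharP.cast_eq_zero_iff k p] at h'
  exact absurd (Nat.le_of_dvd two_pos h') (by omega)

/-- cochains vanishing on the small tuples of the fixed set of `rot p` in `X t` -/
abbrev CFix (k : Type) [Field k] (p : ℕ) (t : ℝ) : AS.Sub (AS.ASK Λ k) :=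
  AS.Zr (fun _ : Unit => S.τ) (fun _ : Unit => (-1 : k)) (S.X t) (Fix (S.X t) (S.rot p))

theorem Fix_sub (p : ℕ) (t : ℝ) : Fix (S.X t) (S.rot p) ⊆ S.X t := fun _ h => h.1

theorem CT_le_CFix (k : Type) [Field k] (p : ℕ) (t : ℝ) : S.CT k t ≤ S.CFix k p t :=
  Zr_anti le_rfl (S.Fix_sub p t)

theorem CFix_le_CS (k : Type) [Field k] (p : ℕ) (t : ℝ) : S.CFix k p t ≤ S.CS k t := Zr_le_Cc

theorem CFix_stable (k : Type) [Field k] {p : ℕ} (hp : p.Prime) (h2 : 2 < p) (t : ℝ) :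
    (S.sym k p hp.pos).gcx.Stable (S.CFix k p t) :=
  Sym.stable_Zr (S.good k p hp.pos t) (S.Fix_sub p t) (mapsTo_g_Fix (S.act hp h2 t))

theorem CFix_triv (k : Type) [Field k] {p : ℕ} [CharP k p] (hp : p.Prime) (h2 : 2 < p) (t : ℝ) :
    H609.Triv (S.sym k p hp.pos).gcx (S.CS k t) (S.CFix k p t) :=
  triv_Fix (hg := S.rot_pow p hp.pos) (S.act hp h2 t)

theorem CFix_uTors (k : Type) [Field k] {p : ℕ} [CharP k p] (hp : p.Prime) (h2 : 2 < p) (t : ℝ) :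
    UTors (S.sym k p hp.pos).gcx (S.CFix k p t) (S.CT k t) (S.CFix_stable k hp h2 t)
      (S.P k p hp.pos t).hT :=
  uTors_Zr (hg := S.rot_pow p hp.pos) (S.act hp h2 t) (two_ne_zero_of_charP k h2)
    (fun _ => by norm_num) S.τ_τ _ _

theorem isMap_ψ {p : ℕ} (hp : p.Prime) (h2 : 2 < p) {t : ℝ} (ht : 0 ≤ t) :
    IsMap (fun _ : Unit => S.τ) (fun _ : Unit => S.τ) (S.X (t / p))
      (Fix (S.X t) (S.rot p)) (S.ψ p) := by
  have hp0 : (0 : ℝ) < p := by exact_mod_cast hp.pos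
  have hs' : 0 ≤ t / p := div_nonneg ht hp0.le
  exact IsMap.of_continuousOn (S.compact _) (S.ψ_cont p hp h2 (t / p) hs')
    (fun x hx => by rw [← S.image_eq_Fix hp h2 ht]; exact mem_image_of_mem _ hx)
    fun _ x hx => S.ψ_τ p hp h2 (t / p) hs' x hx

/-- The cohomology of the fixed set is that of `X (t / p)`. -/
noncomputable def fixMap (k : Type) [Field k] {p : ℕ} (hp : p.Prime) (h2 : 2 < p) {t : ℝ}
    (ht : 0 ≤ t) (j : ℕ) : H (S.CS k t) (S.CFix k p t) j →ₗ[k] S.V k (t / p) j :=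
  pull (fun _ : Unit => (-1 : k)) (S.isMap_ψ hp h2 ht) j ∘ₗ
    Hinc (Cc_anti (S.Fix_sub p t)) (Zr_anti (S.Fix_sub p t) le_rfl) j

theorem fixMap_bijective (k : Type) [Field k] {p : ℕ} (hp : p.Prime) (h2 : 2 < p) {t : ℝ}
    (ht : 0 ≤ t) (j : ℕ) : Function.Bijective (S.fixMap k hp h2 ht j) := by
  have hp0 : (0 : ℝ) < p := by exact_mod_cast hp.pos
  have hs' : 0 ≤ t / p := div_nonneg ht hp0.le
  have h1 := H985.quot_bijective (k := k) (a := fun _ : Unit => S.τ)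
    (χ := fun _ : Unit => (-1 : k)) (X := S.X t) (A := Fix (S.X t) (S.rot p)) (S.Fix_sub p t)
    (fun _ x _ => inv_of S.τ_τ (mapsTo_τ_Fix (S.act hp h2 t)) () x) j
  have h3 := pull_bijective (χ := fun _ : Unit => (-1 : k)) (S.compact _)
    (S.ψ_cont p hp h2 (t / p) hs') (S.ψ_inj p hp h2 (t / p) hs') (S.image_eq_Fix hp h2 ht)
    (fun _ => S.τ_mem _) (S.isMap_ψ hp h2 ht) j
  exact h3.comp h1

variable (k) in
/-- **Localisation by components**, on `FF`. -/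
noncomputable def lamV {p : ℕ} [CharP k p] (hp : p.Prime) (h2 : 2 < p) {t : ℝ} (ht : 0 ≤ t)
    (e j : ℕ) : (S.P k p hp.pos t).FF e →ₗ[k] S.V k (t / p) j :=
  S.fixMap k hp h2 ht j ∘ₗ
    lam (hA := S.CFix_stable k hp h2 t) (S.CFix_triv k hp h2 t) (S.CT_le_CFix k p t) e j

variable {p : ℕ} [CharP k p] (hp : p.Prime) (h2 : 2 < p)

include h2 in
theorem lamV_mk_aux {t : ℝ} (ht : 0 ≤ t) {e : ℕ} (j : ℕ) {c : ∀ q, (ASK Λ k).K q}
    (hc : c ∈ Zc ((S.sym k p hp.pos).gcx.TotS (S.P k p hp.pos t).S (S.P k p hp.pos t).hS)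
      ((S.sym k p hp.pos).gcx.TotS (S.P k p hp.pos t).T (S.P k p hp.pos t).hT) e) :
    pbK k (S.ψ p) j (c j) ∈ Zc (S.CS k (t / p)) (S.CT k (t / p)) j := by
  have h1 : c j ∈ Zc (S.CS k t) (S.CFix k p t) j :=
    (S.CFix_triv k hp h2 t).comp_Zc (hS := (S.P k p hp.pos t).hS)
      (hA := S.CFix_stable k hp h2 t) (Zc_mono le_rfl (TotS_le (S.CT_le_CFix k p t)) e hc) j
  exact ((S.isMap_ψ hp h2 ht).isMor_Cc le_rfl (S.isMap_ψ hp h2 ht).mapsX).mapZ
    (Zc_mono (Cc_anti (S.Fix_sub p t)) (Zr_anti (S.Fix_sub p t) le_rfl) j h1)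

theorem lamV_mk {t : ℝ} (ht : 0 ≤ t) {e : ℕ} (j : ℕ) {c : ∀ q, (ASK Λ k).K q}
    (hc : c ∈ Zc ((S.sym k p hp.pos).gcx.TotS (S.P k p hp.pos t).S (S.P k p hp.pos t).hS)
      ((S.sym k p hp.pos).gcx.TotS (S.P k p hp.pos t).T (S.P k p hp.pos t).hT) e) :
    S.lamV k hp h2 ht e j (H.mk c hc) =
      H.mk (pbK k (S.ψ p) j (c j)) (S.lamV_mk_aux hp h2 ht j hc) := rfl

theorem lamV_of_lt {t : ℝ} (ht : 0 ≤ t) {e j : ℕ} (hj : e < j) (x : (S.P k p hp.pos t).FF e) :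
    S.lamV k hp h2 ht e j x = 0 :=
  (congrArg (S.fixMap k hp h2 ht j) (lam_of_lt (S.CFix_triv k hp h2 t)
    (S.CT_le_CFix k p t) hj x)).trans (map_zero _)

theorem lamV_u {t : ℝ} (ht : 0 ≤ t) (e j : ℕ) (x : (S.P k p hp.pos t).FF e) :
    S.lamV k hp h2 ht (e + 2) j ((S.P k p hp.pos t).u e x) = S.lamV k hp h2 ht e j x := by
  obtain ⟨c, hc, rfl⟩ := H.exists_mk x
  rfl

/-- Naturality. -/
theorem lamV_res {s t : ℝ} (hs : 0 ≤ s) (ht : 0 ≤ t) (hst : s ≤ t) (h' : s / p ≤ t / p)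
    (e j : ℕ) (x : (S.P k p hp.pos t).FF e) :
    S.lamV k hp h2 hs e j (GCx.Pair.resF (P := S.P k p hp.pos t) (P' := S.P k p hp.pos s)
      (Cc_anti (S.mono s t hst)) (Zr_anti (S.mono s t hst) (S.mono s t hst)) e x) =
      AS.res (S.mono (s / p) (t / p) h') j (S.lamV k hp h2 ht e j x) := by
  obtain ⟨c, hc, rfl⟩ := H.exists_mk x
  rfl

/-- Joint injectivity in high degrees. -/
theorem lamV_inj {t : ℝ} (ht : 0 ≤ t) {J : ℕ} (hJ : ∀ j ≥ J, Subsingleton (S.V k t j)) {e : ℕ}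
    (he : J ≤ e) (x : (S.P k p hp.pos t).FF e)
    (hx : ∀ j ≤ e, S.lamV k hp h2 ht e j x = 0) : x = 0 := by
  refine lam_inj (S.P k p hp.pos t) (hA := S.CFix_stable k hp h2 t) (S.CFix_triv k hp h2 t)
    (S.CT_le_CFix k p t) (S.CFix_le_CS k p t) (S.CFix_uTors k hp h2 t) hJ he x fun j hj => ?_
  exact (S.fixMap_bijective k hp h2 ht j).1 ((hx j hj).trans (map_zero _).symm)

/-- Joint surjectivity in high degrees. -/
theorem lamV_surj {t : ℝ} (ht : 0 ≤ t) (hf : ∀ j, Module.Finite k (S.V k (t / p) j)) {J : ℕ}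
    (hJ : ∀ j ≥ J, Subsingleton (S.V k (t / p) j)) :
    ∃ N, ∀ e ≥ N, ∀ y : ∀ j, S.V k (t / p) j, ∃ x : (S.P k p hp.pos t).FF e, ∀ j ≤ e,
      S.lamV k hp h2 ht e j x = y j := by
  let iso : ∀ j, H (S.CS k t) (S.CFix k p t) j ≃ₗ[k] S.V k (t / p) j := fun j =>
    LinearEquiv.ofBijective _ (S.fixMap_bijective k hp h2 ht j)
  have hf' : ∀ j, FiniteDimensional k (H (S.P k p hp.pos t).S (S.CFix k p t) j) := fun j =>
    have := hf j
    LinearEquiv.finiteDimensional (iso j).symm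
  obtain ⟨N, hN⟩ := lam_surj (S.P k p hp.pos t) (hA := S.CFix_stable k hp h2 t)
    (S.CFix_triv k hp h2 t) (S.CT_le_CFix k p t) (S.CFix_le_CS k p t) (S.CFix_uTors k hp h2 t)
    (J := J) fun j hj =>
      have := hJ j hj
      (iso j).toEquiv.subsingleton
  refine ⟨N, fun e he y => ?_⟩
  obtain ⟨x, hx⟩ := hN e he fun j => (iso j).symm (y j)
  exact ⟨x, fun j hj => (congrArg (S.fixMap k hp h2 ht j) (hx j hj)).trans
    ((iso j).apply_symm_apply (y j))⟩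

end

end Vale.Agent.P216.GSys
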